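import Vale.Agent.P361.Field

/-!
One half of Bloch's law in zero field, the two-sided law in every field `K / β`, and Bloch's law
with the exact constant in some field which vanishes faster than the temperature
(volume limit first, then `β → ∞`).
-/

open Matrix Filter Topology
open Vale.Agent.P361

/-- For the spin `n/2` Heisenberg ferromagnet on the three-dimensional lattice: `m_S(β)` is at most
`n/2 - (1 - o(1)) ζ(3/2) / (8 π^{3/2} (n/2)^{3/2} β^{3/2})`; in the field `K / β` both one-sided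
magnetisations are the spin-wave ones up to `o(β^{-3/2})`; and in some field `o(1/β)` both of them
obey Bloch's law exactly. -/
theorem Vale.Agent.Results.P361.BlochLawVanishingField.result (n : ℕ) (hn : 1 ≤ n) :
    ((∀ a, (spinComp n a).IsHermitian) ∧
      spinComp n 0 * spinComp n 1 - spinComp n 1 * spinComp n 0 = Complex.I • spinComp n 2 ∧
      spinComp n 1 * spinComp n 2 - spinComp n 2 * spinComp n 1 = Complex.I • spinComp n 0 ∧
      spinComp n 2 * spinComp n 0 - spinComp n 0 * spinComp n 2 = Complex.I • spinComp n 1 ∧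
      ∑ a, spinComp n a * spinComp n a = (((n : ℂ) / 2) * ((n : ℂ) / 2 + 1)) • 1) ∧
    ∃ p : ℝ → ℝ → ℝ,
      (∀ β, 0 < β → ∀ h, Tendsto (fun N => pressureN n N β h) atTop (𝓝 (p β h))) ∧
      (∀ β, 0 < β → ConvexOn ℝ Set.univ (p β)) ∧
      (∃ m : ℝ → ℝ, (∀ β, 0 < β → HasDerivWithinAt (p β) (m β) (Set.Ioi 0) 0) ∧
        ∀ ε, 0 < ε → ∃ β0 : ℝ, 0 < β0 ∧ ∀ β, β0 ≤ β →
          (riemannZeta (3 / 2)).re / (8 * (Real.pi : ℝ) ^ ((3 : ℝ) / 2) * ((n : ℝ) / 2) ^ ((3 : ℝ) / 2))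
              - ε
            ≤ β ^ ((3 : ℝ) / 2) * ((n : ℝ) / 2 - m β)) ∧
      (∀ β, 0 < β → ∀ h, (∃ d, HasDerivWithinAt (p β) d (Set.Ioi h) h) ∧
        ∃ d, HasDerivWithinAt (p β) d (Set.Iio h) h) ∧
      (∀ K, 0 < K → ∃ G : ℝ,
        HasSum (fun q : ℕ => Real.exp (-(K * ((q : ℝ) + 1)))
          / (8 * (Real.pi : ℝ) ^ ((3 : ℝ) / 2) * ((n : ℝ) / 2) ^ ((3 : ℝ) / 2)
              * ((q : ℝ) + 1) ^ ((3 : ℝ) / 2))) G ∧
        ∀ ε, 0 < ε → ∃ β0 : ℝ, 0 < β0 ∧ ∀ β, β0 ≤ β → ∀ d,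
          (HasDerivWithinAt (p β) d (Set.Ioi (K / β)) (K / β) ∨
            HasDerivWithinAt (p β) d (Set.Iio (K / β)) (K / β)) →
          |β ^ ((3 : ℝ) / 2) * ((n : ℝ) / 2 - d) - G| ≤ ε) ∧
      ∃ h : ℝ → ℝ, (∀ β, 0 < β → 0 < h β) ∧ Tendsto (fun β => β * h β) atTop (𝓝 0) ∧
        ∀ ε, 0 < ε → ∃ β0 : ℝ, 0 < β0 ∧ ∀ β, β0 ≤ β → ∀ d,
          (HasDerivWithinAt (p β) d (Set.Ioi (h β)) (h β) ∨
            HasDerivWithinAt (p β) d (Set.Iio (h β)) (h β)) →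
          |β ^ ((3 : ℝ) / 2) * ((n : ℝ) / 2 - d)
            - (riemannZeta (3 / 2)).re
              / (8 * (Real.pi : ℝ) ^ ((3 : ℝ) / 2) * ((n : ℝ) / 2) ^ ((3 : ℝ) / 2))| ≤ ε := by
  refine ⟨⟨spinComp_herm n, (spinComp_comm n).1, (spinComp_comm n).2.1, (spinComp_comm n).2.2,
    spin_casimir n⟩, press n, fun β hβ h => tendsto_pressureN n hβ h,
    fun β hβ => press_convex n hβ,
    ⟨fun β => derivWithin (press n β) (Set.Ioi 0) 0, fun β hβ => exists_rightDeriv n hβ,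
      fun ε hε => ?_⟩,
    fun β hβ h => ⟨⟨_, (exists_sideDerivs n hβ h).1⟩, _, (exists_sideDerivs n hβ h).2⟩,
    fun K hK => ⟨depl n K, ?_, fun ε hε => ?_⟩, ?_⟩
  · obtain ⟨b, hb⟩ := Filter.eventually_atTop.1 (magnetization_deficit hn hε)
    exact ⟨max b 1, lt_of_lt_of_le one_pos (le_max_right _ _),
      fun β hβ => hb β ((le_max_left _ _).trans hβ)⟩
  · refine (hasSum_depl n hK.le).congr_fun fun q => ?_
    rw [blochTerm_eq, ← Real.exp_nat_mul,
      show ((q + 1 : ℕ) : ℝ) * -K = -(K * ((q : ℝ) + 1)) from by push_cast; ring]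
    ring
  · obtain ⟨b, hb⟩ := Filter.eventually_atTop.1 (magnetization_field hn hK hε)
    exact ⟨max b 1, lt_of_lt_of_le one_pos (le_max_right _ _),
      fun β hβ => hb β ((le_max_left _ _).trans hβ)⟩
  · obtain ⟨h, h1, h2, h3⟩ := bloch_vanishing_field hn
    refine ⟨h, h1, h2, fun ε hε => ?_⟩
    obtain ⟨b, hb⟩ := Filter.eventually_atTop.1 (h3 ε hε)
    exact ⟨max b 1, lt_of_lt_of_le one_pos (le_max_right _ _),
      fun β hβ => hb β ((le_max_left _ _).trans hβ)⟩
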